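import Mathlib

/-! Character sums on `ZMod q`: Parseval, the bilinear bound, two covering lemmas. -/

namespace Vale.Agent.P012

open Finset

noncomputable def cs {ι : Type*} {q : ℕ} [NeZero q] (s : Finset ι) (F : ι → ZMod q)
    (h : ZMod q) : ℂ :=
  ∑ i ∈ s, ZMod.stdAddChar (h * F i)

variable {q : ℕ} [NeZero q]

lemma norm_e (x : ZMod q) : ‖(ZMod.stdAddChar x : ℂ)‖ = 1 := by
  rw [ZMod.stdAddChar_apply]; exact Circle.norm_coe _

lemma sum_e (b : ZMod q) :
    ∑ x : ZMod q, (ZMod.stdAddChar (x * b) : ℂ) = if b = 0 then (q : ℂ) else 0 := by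
  rw [AddChar.sum_mulShift b (ZMod.isPrimitive_stdAddChar q)]
  split_ifs <;> simp [ZMod.card]

lemma conj_e (x : ZMod q) :
    (starRingEnd ℂ) (ZMod.stdAddChar x : ℂ) = ZMod.stdAddChar (-x) := by
  rw [AddChar.map_neg_eq_conj]

lemma cs_zero {ι : Type*} (s : Finset ι) (F : ι → ZMod q) : cs s F 0 = s.card := by
  simp [cs]

lemma norm_cs_le {ι : Type*} (s : Finset ι) (F : ι → ZMod q) (h : ZMod q) :
    ‖cs s F h‖ ≤ s.card := by
  unfold cs
  refine (norm_sum_le _ _).trans ?_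
  simp

lemma cs_prod {ι κ : Type*} (s : Finset ι) (t : Finset κ) (F : ι → ZMod q) (G : κ → ZMod q)
    (h : ZMod q) :
    cs (s ×ˢ t) (fun x => F x.1 + G x.2) h = cs s F h * cs t G h := by
  unfold cs
  rw [sum_product, sum_mul_sum]
  refine sum_congr rfl fun i _ => sum_congr rfl fun j _ => ?_
  rw [mul_add, AddChar.map_add_eq_mul]

lemma parseval {ι : Type*} (s : Finset ι) (F : ι → ZMod q) (hF : Set.InjOn F s) :
    ∑ x : ZMod q, ‖cs s F x‖ ^ 2 = q * s.card := by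
  classical
  have key : ∀ x : ZMod q, ((‖cs s F x‖ ^ 2 : ℝ) : ℂ) =
      ∑ i ∈ s, ∑ j ∈ s, (ZMod.stdAddChar (x * (F i - F j)) : ℂ) := by
    intro x
    rw [← Complex.normSq_eq_norm_sq, Complex.normSq_eq_conj_mul_self, mul_comm]
    unfold cs
    rw [map_sum, sum_mul_sum]
    refine sum_congr rfl fun i _ => sum_congr rfl fun j _ => ?_
    rw [conj_e, ← AddChar.map_add_eq_mul]
    congr 1; ring
  have : ((∑ x : ZMod q, ‖cs s F x‖ ^ 2 : ℝ) : ℂ) = ((q * s.card : ℝ) : ℂ) := by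
    rw [Complex.ofReal_sum]
    simp_rw [key]
    rw [sum_comm]
    have : ∀ i ∈ s, ∑ x : ZMod q, ∑ j ∈ s, (ZMod.stdAddChar (x * (F i - F j)) : ℂ) = q := by
      intro i hi
      rw [sum_comm]
      simp_rw [sum_e]
      rw [sum_eq_single i]
      · simp
      · intro j hj hji
        rw [if_neg]
        intro h
        exact hji (hF hj hi (sub_eq_zero.mp h).symm)
      · intro h; exact absurd hi h
    rw [sum_congr rfl this]
    simp [mul_comm]
  exact_mod_cast this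

lemma bilinear {ι κ : Type*} (s : Finset ι) (t : Finset κ) (F : ι → ZMod q) (G : κ → ZMod q)
    (h : ZMod q) (hF : Set.InjOn F s) (hG : Set.InjOn (fun j => h * G j) t) :
    ‖cs (s ×ˢ t) (fun x => F x.1 * G x.2) h‖ ^ 2 ≤ q * s.card * t.card := by
  classical
  have h1 : cs (s ×ˢ t) (fun x => F x.1 * G x.2) h
      = ∑ i ∈ s, cs t (fun j => h * G j) (F i) := by
    unfold cs
    rw [sum_product]
    refine sum_congr rfl fun i _ => sum_congr rfl fun j _ => ?_
    congr 1; ring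
  rw [h1]
  calc ‖∑ i ∈ s, cs t (fun j => h * G j) (F i)‖ ^ 2
      ≤ (∑ i ∈ s, ‖cs t (fun j => h * G j) (F i)‖) ^ 2 := by
        gcongr; exact norm_sum_le _ _
    _ ≤ s.card * ∑ i ∈ s, ‖cs t (fun j => h * G j) (F i)‖ ^ 2 := sq_sum_le_card_mul_sum_sq
    _ ≤ s.card * ∑ x : ZMod q, ‖cs t (fun j => h * G j) x‖ ^ 2 := by
        gcongr
        rw [← sum_image (f := fun x => ‖cs t (fun j => h * G j) x‖ ^ 2) hF]
        exact sum_le_sum_of_subset_of_nonneg (subset_univ _) (fun _ _ _ => by positivity)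
    _ = q * s.card * t.card := by rw [parseval _ _ hG]; ring

lemma exists_zero {ι : Type*} (s : Finset ι) (F : ι → ZMod q)
    (hlt : ∑ h ∈ (univ : Finset (ZMod q)).erase 0, ‖cs s F h‖ < s.card) :
    ∃ i ∈ s, F i = 0 := by
  classical
  by_contra hne
  push Not at hne
  have h0 : ∑ h : ZMod q, cs s F h = 0 := by
    unfold cs
    rw [sum_comm]
    refine sum_eq_zero fun i hi => ?_
    rw [sum_e, if_neg (hne i hi)]
  rw [← add_sum_erase _ _ (mem_univ (0 : ZMod q)), cs_zero] at h0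
  have h1 : (s.card : ℂ) = -∑ h ∈ (univ : Finset (ZMod q)).erase 0, cs s F h := by
    linear_combination h0
  have h2 : (s.card : ℝ) ≤ ∑ h ∈ (univ : Finset (ZMod q)).erase 0, ‖cs s F h‖ := by
    calc (s.card : ℝ) = ‖(s.card : ℂ)‖ := by simp
      _ = ‖∑ h ∈ (univ : Finset (ZMod q)).erase 0, cs s F h‖ := by rw [h1, norm_neg]
      _ ≤ _ := norm_sum_le _ _
  linarith

/-- Four products from a large set sum to zero modulo a prime. -/
lemma cover_prime (p : ℕ) [Fact p.Prime] (A : Finset (ZMod p)) (hA : p ^ 3 < A.card ^ 4) :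
    ∃ a1 ∈ A, ∃ b1 ∈ A, ∃ a2 ∈ A, ∃ b2 ∈ A, ∃ a3 ∈ A, ∃ b3 ∈ A, ∃ a4 ∈ A, ∃ b4 ∈ A,
      a1 * b1 + a2 * b2 + (a3 * b3 + a4 * b4) = 0 := by
  classical
  set s := A ×ˢ A with hs
  set F : ZMod p × ZMod p → ZMod p := fun x => x.1 * x.2 with hF
  have hp : (0 : ℝ) < p := by exact_mod_cast (Fact.out : p.Prime).pos
  have hA' : (p : ℝ) ^ 3 < (A.card : ℝ) ^ 4 := by exact_mod_cast hA
  obtain ⟨x, hx, h0⟩ := exists_zero ((s ×ˢ s) ×ˢ (s ×ˢ s))
    (fun x => (F x.1.1 + F x.1.2) + (F x.2.1 + F x.2.2)) (by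
      have hb : ∀ h ∈ (univ : Finset (ZMod p)).erase 0,
          ‖cs ((s ×ˢ s) ×ˢ (s ×ˢ s)) (fun x => (F x.1.1 + F x.1.2) + (F x.2.1 + F x.2.2)) h‖
            ≤ ((p : ℝ) * A.card * A.card) ^ 2 := by
        intro h hh
        have hh0 : h ≠ 0 := (mem_erase.mp hh).1
        rw [cs_prod (s ×ˢ s) (s ×ˢ s) (fun x => F x.1 + F x.2) (fun x => F x.1 + F x.2),
          cs_prod s s F F]
        have hbil := bilinear A A id id h (Set.injOn_id _)
          (fun a _ b _ hab => mul_left_cancel₀ hh0 hab)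
        have e : cs s F h = cs (A ×ˢ A) (fun x => id x.1 * id x.2) h := rfl
        rw [← e] at hbil
        simp only [norm_mul]
        calc ‖cs s F h‖ * ‖cs s F h‖ * (‖cs s F h‖ * ‖cs s F h‖) = (‖cs s F h‖ ^ 2) ^ 2 := by ring
          _ ≤ _ := by gcongr
      calc _ ≤ ∑ h ∈ (univ : Finset (ZMod p)).erase 0, ((p : ℝ) * A.card * A.card) ^ 2 :=
            sum_le_sum hb
        _ ≤ p * ((p : ℝ) * A.card * A.card) ^ 2 := by
            rw [sum_const, nsmul_eq_mul]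
            gcongr
            exact_mod_cast (card_erase_le.trans (by simp [ZMod.card]))
        _ = (p : ℝ) ^ 3 * (A.card : ℝ) ^ 4 := by ring
        _ < (A.card : ℝ) ^ 4 * (A.card : ℝ) ^ 4 := by
            have : (0 : ℝ) < (A.card : ℝ) ^ 4 := lt_trans (by positivity) hA'
            gcongr
        _ = _ := by simp [hs, card_product]; ring)
  simp only [hs, mem_product] at hx
  exact ⟨_, hx.1.1.1, _, hx.1.1.2, _, hx.1.2.1, _, hx.1.2.2, _, hx.2.1.1, _, hx.2.1.2, _,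
    hx.2.2.1, _, hx.2.2.2, h0⟩

lemma norm_cs_range_le (L m : ℕ) (hm : 0 < m) (h : ZMod q) (hh : h ≠ 0)
    (hmh : h * (m : ZMod q) = 0) :
    ‖cs (range L) (fun y : ℕ => (y : ZMod q)) h‖ ≤ m := by
  set z : ℂ := ZMod.stdAddChar h with hz
  have hpow : ∀ y : ℕ, (ZMod.stdAddChar (h * (y : ZMod q)) : ℂ) = z ^ y := by
    intro y
    rw [mul_comm, ← nsmul_eq_mul, AddChar.map_nsmul_eq_pow]
  have hz1 : z ≠ 1 := by
    intro h1
    apply hh
    apply ZMod.injective_stdAddChar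
    rw [← hz, h1, AddChar.map_zero_eq_one]
  have hzm : z ^ m = 1 := by rw [← hpow, hmh, AddChar.map_zero_eq_one]
  have e1 : cs (range L) (fun y : ℕ => (y : ZMod q)) h
      = cs (range (L % m)) (fun y : ℕ => (y : ZMod q)) h := by
    unfold cs
    simp_rw [hpow]
    rw [geom_sum_eq hz1, geom_sum_eq hz1]
    congr 2
    conv_lhs => rw [← Nat.div_add_mod L m, pow_add, pow_mul, hzm, one_pow, one_mul]
  rw [e1]
  refine (norm_cs_le _ _ _).trans ?_
  rw [card_range]
  exact_mod_cast (Nat.mod_lt _ hm).le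

/-- A product of two elements of a large set of small integers lies just below a multiple of `q`. -/
lemma cover_interval (q : ℕ) (hq : 0 < q) (P : Finset ℕ) (Z L : ℕ) (hP : ∀ p ∈ P, p ≤ Z)
    (hZ : Z < q) (hL : L ≤ q) (h1 : 2 * q * Z ≤ L ^ 2) (h2 : 4 * q ^ 3 ≤ P.card ^ 2 * L ^ 2) :
    ∃ p ∈ P, ∃ p' ∈ P, ∃ y, y < 3 * L ∧ q ∣ p * p' + y := by
  classical
  have : NeZero q := ⟨hq.ne'⟩
  set c : ℕ → ZMod q := fun y => (y : ZMod q) with hc
  have hinj : ∀ (s : Finset ℕ), (∀ x ∈ s, x < q) → Set.InjOn c s := by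
    intro s hs a ha b hb hab
    have := (ZMod.natCast_eq_natCast_iff' a b q).mp hab
    rwa [Nat.mod_eq_of_lt (hs a ha), Nat.mod_eq_of_lt (hs b hb)] at this
  have hqR : (0 : ℝ) < q := by exact_mod_cast hq
  have h1R : 2 * (q : ℝ) * Z ≤ (L : ℝ) ^ 2 := by exact_mod_cast h1
  have h2R : 4 * (q : ℝ) ^ 3 ≤ (P.card : ℝ) ^ 2 * (L : ℝ) ^ 2 := by exact_mod_cast h2
  have hPL : (0 : ℝ) < (P.card : ℝ) ^ 2 * (L : ℝ) ^ 2 := lt_of_lt_of_le (by positivity) h2R
  have hL0 : (0 : ℝ) < L := by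
    rcases Nat.eq_zero_or_pos L with h | h
    · simp [h] at hPL
    · exact_mod_cast h
  set K : ℝ := (P.card : ℝ) ^ 2 * (L : ℝ) ^ 2 / (2 * q) with hK
  have hK0 : 0 < K := by positivity
  set S : ZMod q → ℂ := cs (P ×ˢ P) (fun x => c x.1 * c x.2) with hS
  set Y : ZMod q → ℂ := cs (range L) c with hY
  have hSY : ∀ h : ZMod q, h ≠ 0 → ‖S h‖ * ‖Y h‖ ≤ K := by
    intro h hh
    by_cases hi : Set.InjOn (fun j => h * c j) P
    · have hb := bilinear P P c c h (hinj P fun x hx => (hP x hx).trans_lt hZ) hi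
      have hy : ‖Y h‖ ≤ L := by simpa using norm_cs_le (range L) c h
      refine (pow_le_pow_iff_left₀ (by positivity) hK0.le two_ne_zero).mp ?_
      have e : K ^ 2 = ((P.card : ℝ) ^ 2 * (L : ℝ) ^ 2) * (((P.card : ℝ) ^ 2 * (L : ℝ) ^ 2)
          / (4 * (q : ℝ) ^ 2)) := by rw [hK]; field_simp; ring
      have e2 : (q : ℝ) ≤ ((P.card : ℝ) ^ 2 * (L : ℝ) ^ 2) / (4 * (q : ℝ) ^ 2) := by
        rw [le_div_iff₀ (by positivity)]; nlinarith
      calc (‖S h‖ * ‖Y h‖) ^ 2 = ‖S h‖ ^ 2 * ‖Y h‖ ^ 2 := by ring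
        _ ≤ (q * P.card * P.card) * (L : ℝ) ^ 2 := by gcongr
        _ = ((P.card : ℝ) ^ 2 * (L : ℝ) ^ 2) * q := by ring
        _ ≤ K ^ 2 := by rw [e]; gcongr
    · have hs : ‖S h‖ ≤ (P.card : ℝ) ^ 2 := by
        have := norm_cs_le (P ×ˢ P) (fun x => c x.1 * c x.2) h
        rw [card_product] at this
        push_cast at this
        rw [sq]; exact this
      have hy : ‖Y h‖ ≤ Z := by
        unfold Set.InjOn at hi
        push Not at hi
        obtain ⟨a, ha, b, hb, hab, hne⟩ := hi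
        have key : ∀ a b : ℕ, a ∈ P → b < a → h * c a = h * c b → ‖Y h‖ ≤ Z := by
          intro a b ha hba hab
          have := norm_cs_range_le L (a - b) (by omega) h hh (by
            rw [Nat.cast_sub hba.le, mul_sub]; exact sub_eq_zero.mpr hab)
          refine this.trans ?_
          have : a - b ≤ Z := by have := hP a ha; omega
          exact_mod_cast this
        rcases lt_or_gt_of_ne hne with hlt | hlt
        · exact key b a hb hlt hab.symm
        · exact key a b ha hlt hab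
      calc ‖S h‖ * ‖Y h‖ ≤ (P.card : ℝ) ^ 2 * Z := by gcongr
        _ ≤ K := by
          rw [hK, le_div_iff₀ (by positivity), mul_assoc]
          gcongr
          nlinarith
  obtain ⟨x, hx, h0⟩ := exists_zero (((P ×ˢ P) ×ˢ range L) ×ˢ (range L ×ˢ range L))
    (fun x => (c x.1.1.1 * c x.1.1.2 + c x.1.2) + (c x.2.1 + c x.2.2)) (by
      have hb : ∀ h ∈ (univ : Finset (ZMod q)).erase 0,
          ‖cs (((P ×ˢ P) ×ˢ range L) ×ˢ (range L ×ˢ range L))
            (fun x => (c x.1.1.1 * c x.1.1.2 + c x.1.2) + (c x.2.1 + c x.2.2)) h‖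
            ≤ K * ‖Y h‖ ^ 2 := by
        intro h hh
        have hh0 : h ≠ 0 := (mem_erase.mp hh).1
        rw [cs_prod ((P ×ˢ P) ×ˢ range L) (range L ×ˢ range L)
          (fun x => c x.1.1 * c x.1.2 + c x.2) (fun x => c x.1 + c x.2),
          cs_prod (P ×ˢ P) (range L) (fun x => c x.1 * c x.2) c, cs_prod (range L) (range L) c c]
        simp only [norm_mul]
        have := hSY h hh0
        calc ‖S h‖ * ‖Y h‖ * (‖Y h‖ * ‖Y h‖) = (‖S h‖ * ‖Y h‖) * ‖Y h‖ ^ 2 := by ring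
          _ ≤ _ := by gcongr
      have hpar := parseval (range L) c (hinj _ fun x hx => (mem_range.mp hx).trans_le hL)
      calc _ ≤ ∑ h ∈ (univ : Finset (ZMod q)).erase 0, K * ‖Y h‖ ^ 2 := sum_le_sum hb
        _ ≤ ∑ h : ZMod q, K * ‖Y h‖ ^ 2 :=
            sum_le_sum_of_subset_of_nonneg (subset_univ _) (fun _ _ _ => by positivity)
        _ = K * (q * L) := by rw [← mul_sum, hpar, card_range]
        _ = ((P.card : ℝ) ^ 2 * (L : ℝ) ^ 2) * L / 2 := by rw [hK]; field_simp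
        _ < ((P.card : ℝ) ^ 2 * (L : ℝ) ^ 2) * L := by
            have : 0 < ((P.card : ℝ) ^ 2 * (L : ℝ) ^ 2) * L := by positivity
            linarith
        _ = _ := by simp [card_product]; ring)
  simp only [mem_product, mem_range] at hx
  refine ⟨_, hx.1.1.1, _, hx.1.1.2, x.1.2 + (x.2.1 + x.2.2), by omega, ?_⟩
  rw [← ZMod.natCast_eq_zero_iff]
  push_cast
  simp only [hc] at h0
  linear_combination h0

end Vale.Agent.P012
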