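import Mathlib

/-! Sums of at most `k` unit fractions, repetitions allowed; removing the repetitions. -/

namespace Vale.Agent.P012

open Finset

def rsum (m : Multiset ℕ) : ℚ := (m.map fun n : ℕ => (1 : ℚ) / n).sum

@[simp] lemma rsum_zero : rsum 0 = 0 := by simp [rsum]
@[simp] lemma rsum_cons (n : ℕ) (m : Multiset ℕ) : rsum (n ::ₘ m) = 1 / n + rsum m := by
  simp [rsum]
@[simp] lemma rsum_add (m m' : Multiset ℕ) : rsum (m + m') = rsum m + rsum m' := by
  simp [rsum]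

lemma rsum_nonneg (m : Multiset ℕ) : 0 ≤ rsum m := by
  induction m using Multiset.induction_on with
  | empty => simp
  | cons a m ih => rw [rsum_cons]; positivity

def Rep (k : ℕ) (x : ℚ) : Prop :=
  ∃ m : Multiset ℕ, m.card ≤ k ∧ (∀ n ∈ m, 0 < n) ∧ rsum m = x

lemma Rep.zero (k : ℕ) : Rep k 0 := ⟨0, by simp, by simp, by simp⟩

lemma Rep.mono {k k' : ℕ} {x : ℚ} (h : Rep k x) (hk : k ≤ k') : Rep k' x := by
  obtain ⟨m, h1, h2, h3⟩ := h
  exact ⟨m, h1.trans hk, h2, h3⟩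

lemma Rep.add {k k' : ℕ} {x y : ℚ} (h : Rep k x) (h' : Rep k' y) : Rep (k + k') (x + y) := by
  obtain ⟨m, h1, h2, h3⟩ := h
  obtain ⟨m', h1', h2', h3'⟩ := h'
  refine ⟨m + m', by simp; omega, ?_, by simp [h3, h3']⟩
  intro n hn
  rcases Multiset.mem_add.mp hn with h | h
  · exact h2 n h
  · exact h2' n h

lemma Rep.unit {d B : ℕ} (hB : 0 < B) (hd : d ∣ B) : Rep 1 ((d : ℚ) / B) := by
  obtain ⟨e, rfl⟩ := hd
  have hd0 : 0 < d := Nat.pos_of_mul_pos_right hB |> fun h => by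
    rcases Nat.eq_zero_or_pos d with h0 | h0
    · simp [h0] at hB
    · exact h0
  have he0 : 0 < e := by
    rcases Nat.eq_zero_or_pos e with h0 | h0
    · simp [h0] at hB
    · exact h0
  refine ⟨{e}, by simp, by simpa using he0, ?_⟩
  have : (d : ℚ) ≠ 0 := by positivity
  have : (e : ℚ) ≠ 0 := by positivity
  simp [rsum]
  field_simp

lemma exists_small (m : Multiset ℕ) (hm : m ≠ 0) (hpos : ∀ n ∈ m, 0 < n) :
    ∃ n ∈ m, (n : ℚ) * rsum m ≤ m.card := by
  obtain ⟨n, hn, hmin⟩ := m.toFinset.exists_min_image id (by simpa using hm)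
  simp only [Multiset.mem_toFinset, id] at hn hmin
  refine ⟨n, hn, ?_⟩
  have hn0 : (0 : ℚ) < n := by exact_mod_cast hpos n hn
  have : rsum m ≤ (m.card : ℚ) * (1 / n) := by
    have := Multiset.sum_le_card_nsmul (m.map fun n : ℕ => (1 : ℚ) / n) (1 / n) (by
      intro x hx
      obtain ⟨a, ha, rfl⟩ := Multiset.mem_map.mp hx
      have : (n : ℚ) ≤ a := by exact_mod_cast hmin a ha
      exact one_div_le_one_div_of_le hn0 this)
    simpa [rsum] using this
  calc (n : ℚ) * rsum m ≤ n * ((m.card : ℚ) * (1 / n)) := by gcongr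
    _ = m.card := by field_simp

lemma finite_reps (k : ℕ) : ∀ x : ℚ,
    {m : Multiset ℕ | m.card = k ∧ (∀ n ∈ m, 0 < n) ∧ rsum m = x}.Finite := by
  induction k with
  | zero =>
    intro x
    refine (Set.finite_singleton (0 : Multiset ℕ)).subset ?_
    rintro m ⟨h, -⟩
    simpa using h
  | succ k ih =>
    intro x
    have hfin : (⋃ n ∈ Set.Iic ⌈((k : ℚ) + 1) / x⌉₊, (fun m => n ::ₘ m) ''
        {m : Multiset ℕ | m.card = k ∧ (∀ n ∈ m, 0 < n) ∧ rsum m = x - 1 / n}).Finite :=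
      (Set.finite_Iic _).biUnion fun n _ => (ih _).image _
    refine hfin.subset ?_
    rintro m ⟨h1, h2, h3⟩
    have hm : m ≠ 0 := by rintro rfl; simp at h1
    obtain ⟨n, hn, hle⟩ := exists_small m hm h2
    obtain ⟨m', rfl⟩ := Multiset.exists_cons_of_mem hn
    have hn0 : (0 : ℚ) < n := by exact_mod_cast h2 n hn
    have hx : 0 < x := by
      rw [← h3, rsum_cons]
      have := rsum_nonneg m'
      positivity
    simp only [Set.mem_iUnion, Set.mem_image, Set.mem_ofPred_eq]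
    refine ⟨n, ?_, m', ⟨by simpa using h1, fun a ha => h2 a (Multiset.mem_cons_of_mem ha), ?_⟩, rfl⟩
    · rw [Set.mem_Iic]
      have : (n : ℚ) ≤ ((k : ℚ) + 1) / x := by
        rw [le_div_iff₀ hx, ← h3]
        rw [h1] at hle
        exact_mod_cast hle
      exact_mod_cast this.trans (Nat.le_ceil _)
    · rw [← h3, rsum_cons]; ring

lemma Rep.distinct {k : ℕ} {x : ℚ} (h : Rep k x) (hx : x < 1) :
    ∃ S : Finset ℕ, S.card ≤ k ∧ (∀ n ∈ S, 2 ≤ n) ∧ ∑ n ∈ S, (1 : ℚ) / n = x := by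
  obtain ⟨m0, h1, h2, h3⟩ := h
  obtain ⟨m, ⟨hm1, hm2, hm3⟩, hmax⟩ := Set.exists_max_image _ (fun m : Multiset ℕ => m.sum)
    (finite_reps m0.card x) ⟨m0, rfl, h2, h3⟩
  have hnd : m.Nodup := by
    by_contra hnd
    rw [Multiset.nodup_iff_ne_cons_cons] at hnd
    push Not at hnd
    obtain ⟨n, t, rfl⟩ := hnd
    have hn0 : 0 < n := hm2 n (by simp)
    have hnq : (0 : ℚ) < n := by exact_mod_cast hn0
    have ht := rsum_nonneg t
    simp only [rsum_cons] at hm3
    have hn3 : 2 < n := by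
      have : (2 : ℚ) / n < 1 := by
        have : (2 : ℚ) / n = 1 / n + 1 / n := by ring
        linarith
      rw [div_lt_one hnq] at this
      exact_mod_cast this
    have key : ∀ u v : ℕ, 0 < u → 0 < v → (1 : ℚ) / u + 1 / v = 1 / n + 1 / n →
        u + v ≤ n + n := by
      intro u v hu hv huv
      have := hmax (u ::ₘ v ::ₘ t) ⟨by simpa using hm1, ?_, ?_⟩
      · simp only [Multiset.sum_cons] at this; omega
      · intro a ha
        simp only [Multiset.mem_cons] at ha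
        rcases ha with rfl | rfl | ha
        · exact hu
        · exact hv
        · exact hm2 a (by simp [ha])
      · simp only [rsum_cons]; linarith
    rcases Nat.even_or_odd' n with ⟨j, rfl | rfl⟩
    · have hj : 2 ≤ j := by omega
      have hjq : (0 : ℚ) < j := by exact_mod_cast (by omega : 0 < j)
      have := key (j + 1) (j * (j + 1)) (by omega) (by positivity) (by
        push_cast; field_simp; ring)
      nlinarith
    · have hj : 1 ≤ j := by omega
      have := key (j + 1) ((j + 1) * (2 * j + 1)) (by omega) (by positivity) (by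
        push_cast; field_simp; ring)
      nlinarith
  refine ⟨⟨m, hnd⟩, by simp [hm1, h1], ?_, hm3⟩
  intro n hn
  have hn' : n ∈ m := hn
  obtain ⟨t, rfl⟩ := Multiset.exists_cons_of_mem hn'
  have hn0 : 0 < n := hm2 n (by simp)
  have ht := rsum_nonneg t
  rw [rsum_cons] at hm3
  by_contra hlt
  have : n = 1 := by omega
  subst this
  simp at hm3
  linarith

/-- binary expansion -/
lemma rep_binary (m : ℕ) : ∀ c W : ℕ, c < 2 ^ m → 0 < W → 2 ^ m ∣ W → Rep m ((c : ℚ) / W) := by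
  induction m with
  | zero => intro c W hc _ _; have : c = 0 := by omega
            subst this; simpa using Rep.zero 0
  | succ m ih =>
    intro c W hc hW hd
    have hd' : 2 ^ m ∣ W := (pow_dvd_pow 2 (Nat.le_succ m)).trans hd
    by_cases h : c < 2 ^ m
    · exact (ih c W h hW hd').mono (Nat.le_succ m)
    · obtain ⟨c', rfl⟩ : ∃ c', c = c' + 2 ^ m := ⟨c - 2 ^ m, by omega⟩
      have := (ih c' W (by rw [pow_succ] at hc; omega) hW hd').add (Rep.unit hW hd')
      convert this using 1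
      push_cast; ring

/-- `B` has a divisor at every scale up to `B`, up to the factor `F`. -/
def Cov (F B : ℕ) : Prop := ∀ Z, 1 ≤ Z → Z ≤ B → ∃ g, g ∣ B ∧ g ≤ Z ∧ Z < F * g

lemma greedy_step {F A B : ℕ} (hAB : A < B) (hc : Cov F B) :
    ∃ A' B' : ℕ, A' < B' ∧ Cov F B' ∧ A' ≤ A ∧ A' * B ^ 2 ≤ A ^ 2 * B' ∧ 2 * A' ≤ B' ∧
      ∃ y : ℚ, Rep 1 y ∧ (A : ℚ) / B = y + (A' : ℚ) / B' := by
  rcases Nat.eq_zero_or_pos A with rfl | hA
  · exact ⟨0, B, hAB, hc, le_rfl, by simp, by simp, 0, Rep.zero 1, by simp⟩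
  have hB : 0 < B := by omega
  set n := (B - 1) / A + 1 with hn
  have hn1 : B ≤ A * n := by
    have := Nat.lt_mul_div_succ (B - 1) hA
    rw [← hn] at this; omega
  have hn2 : A * n < B + A := by
    have := Nat.mul_div_le (B - 1) A
    rw [hn, mul_add]; omega
  have hn3 : n ≤ B := by
    have := Nat.div_le_self (B - 1) A
    omega
  have hn4 : 2 ≤ n := by
    by_contra h
    have h1 : 1 ≤ n := Nat.le_add_left 1 _
    have : n = 1 := by omega
    rw [this] at hn1; omega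
  obtain ⟨A', hA'⟩ : ∃ A', A * n = B + A' := ⟨A * n - B, by omega⟩
  have hA'A : A' ≤ A := by omega
  refine ⟨A', B * n, by nlinarith, ?_, hA'A, ?_, by nlinarith, 1 / n, ?_, ?_⟩
  · intro Z hZ1 hZ2
    by_cases hZ : Z ≤ B
    · obtain ⟨g, h1, h2, h3⟩ := hc Z hZ1 hZ
      exact ⟨g, h1.mul_right n, h2, h3⟩
    · obtain ⟨g, h1, h2, h3⟩ := hc (Z / n) (Nat.div_pos (by omega) (by omega))
        (Nat.div_le_of_le_mul (by rw [mul_comm]; exact hZ2))
      refine ⟨g * n, mul_dvd_mul_right h1 n, ?_, ?_⟩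
      · exact (Nat.le_div_iff_mul_le (by omega)).mp h2
      · rw [← mul_assoc]; exact (Nat.div_lt_iff_lt_mul (by omega)).mp h3
  · calc A' * B ^ 2 = A' * B * B := by ring
      _ ≤ A * (A * n) * B := by gcongr
      _ = A ^ 2 * (B * n) := by ring
  · simpa using Rep.unit (d := 1) (B := n) (by omega) (one_dvd n)
  · have hBq : (B : ℚ) ≠ 0 := by positivity
    have hnq : (n : ℚ) ≠ 0 := by
      have : 0 < n := by omega
      positivity
    have : (A : ℚ) * n = B + A' := by exact_mod_cast hA'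
    push_cast
    field_simp
    linarith

lemma greedy {a b : ℕ} (hab : a < b) (j : ℕ) :
    ∃ A B : ℕ, A < B ∧ Cov (b + 1) B ∧ A ≤ a ∧ A * 2 ^ 2 ^ j ≤ B ∧
      ∃ y : ℚ, Rep (j + 1) y ∧ (a : ℚ) / b = y + (A : ℚ) / B := by
  induction j with
  | zero =>
    have hc : Cov (b + 1) b := fun Z h1 h2 => ⟨1, one_dvd _, h1, by omega⟩
    obtain ⟨A', B', h1, h2, h3, -, h5, y, h6, h7⟩ := greedy_step hab hc
    exact ⟨A', B', h1, h2, h3, by simpa [mul_comm] using h5, y, h6, h7⟩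
  | succ j ih =>
    obtain ⟨A, B, h1, h2, h3, h4, y, h5, h6⟩ := ih
    obtain ⟨A', B', k1, k2, k3, k4, -, y', k6, k7⟩ := greedy_step h1 h2
    refine ⟨A', B', k1, k2, k3.trans h3, ?_, y + y', h5.add k6, by rw [h6, k7]; ring⟩
    have hB : 0 < B ^ 2 := by have : 0 < B := by omega
                              positivity
    refine Nat.le_of_mul_le_mul_right ?_ hB
    calc A' * 2 ^ 2 ^ (j + 1) * B ^ 2 = (A' * B ^ 2) * (2 ^ 2 ^ j) ^ 2 := by
          rw [pow_succ 2 j, pow_mul]; ring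
      _ ≤ (A ^ 2 * B') * (2 ^ 2 ^ j) ^ 2 := by gcongr
      _ = (A * 2 ^ 2 ^ j) ^ 2 * B' := by ring
      _ ≤ B ^ 2 * B' := by gcongr
      _ = B' * B ^ 2 := by ring

lemma Cov.two {F B L : ℕ} (hc : Cov F B) (hF : F ≤ 2 ^ L) (Z : ℕ) (h1 : 1 ≤ Z) (h2 : Z ≤ B) :
    ∃ g, g ∣ B * 2 ^ L ∧ 0 < g ∧ g ≤ Z ∧ Z < 2 * g := by
  obtain ⟨g, k1, k2, k3⟩ := hc Z h1 h2
  have hg : 0 < g := by
    rcases Nat.eq_zero_or_pos g with h | h
    · simp [h] at k3
    · exact h
  have hq : 0 < Z / g := Nat.div_pos k2 hg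
  set i := Nat.log 2 (Z / g) with hi
  have a1 : 2 ^ i ≤ Z / g := Nat.pow_log_le_self 2 hq.ne'
  have a2 : Z / g < 2 ^ (i + 1) := Nat.lt_pow_succ_log_self (by norm_num) _
  have a3 : Z / g < F := (Nat.div_lt_iff_lt_mul hg).mpr k3
  have a4 : i ≤ L := by
    have : 2 ^ i < 2 ^ L := by omega
    exact ((Nat.pow_lt_pow_iff_right (by norm_num)).mp this).le
  refine ⟨g * 2 ^ i, mul_dvd_mul k1 (pow_dvd_pow 2 a4), by positivity, ?_, ?_⟩
  · rw [mul_comm]; exact (Nat.le_div_iff_mul_le hg).mp a1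
  · have := (Nat.div_lt_iff_lt_mul hg).mp a2
    rw [pow_succ] at this; linarith

end Vale.Agent.P012
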