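import Vale.Agent.P012.Fourier
import Vale.Agent.P012.Rep

/-! Good primes: those dividing a sum of four divisors of the reservoir. -/

namespace Vale.Agent.P012

open Finset

def Good (R p : ℕ) : Prop :=
  ∃ d1 d2 d3 d4 : ℕ, d1 ∣ R ∧ d2 ∣ R ∧ d3 ∣ R ∧ d4 ∣ R ∧ p ∣ d1 + d2 + (d3 + d4)

lemma Good.rep_mul {R p k x : ℕ} (hp : Good R p) (hR : 0 < R)
    (W : ℕ) (hW : 0 < W) (H : ∀ d M, d ∣ R → 0 < M → Rep k (((x * d : ℕ) : ℚ) / (W * M : ℕ))) :
    Rep (4 * k) (((x * p : ℕ) : ℚ) / W) := by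
  obtain ⟨d1, d2, d3, d4, h1, h2, h3, h4, M, hM⟩ := hp
  have hd1 : 0 < d1 := Nat.pos_of_dvd_of_pos h1 hR
  have hM0 : 0 < M := by
    rcases Nat.eq_zero_or_pos M with h | h
    · rw [h] at hM; omega
    · exact h
  have := ((H d1 M h1 hM0).add (H d2 M h2 hM0)).add ((H d3 M h3 hM0).add (H d4 M h4 hM0))
  convert this using 1
  · ring
  · have hMq : (M : ℚ) ≠ 0 := by positivity
    have hWq : (W : ℚ) ≠ 0 := by positivity
    have : (d1 : ℚ) + d2 + (d3 + d4) = p * M := by exact_mod_cast hM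
    push_cast
    field_simp
    linear_combination -x * this

lemma rep_good_good {R p p' g W : ℕ} (hp : Good R p) (hp' : Good R p') (hR : 0 < R)
    (hW : 0 < W) (hg : g * R ^ 2 ∣ W) : Rep 16 (((g * (p * p') : ℕ) : ℚ) / W) := by
  have : g * (p * p') = (g * p) * p' := by ring
  rw [this]
  refine hp'.rep_mul (k := 4) hR W hW fun d M hd hM => ?_
  have : g * p * d = (g * d) * p := by ring
  rw [this]
  refine hp.rep_mul (k := 1) hR (W * M) (by positivity) fun d' M' hd' hM' => ?_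
  refine Rep.unit (by positivity) ?_
  have : g * d * d' ∣ g * R ^ 2 := by
    rw [sq, mul_assoc]; exact mul_dvd_mul_left g (mul_dvd_mul hd hd')
  exact ((this.trans hg).mul_right M).mul_right M'

lemma good_of_image {Q p : ℕ} (hp : p.Prime) (D : Finset ℕ) (hD : ∀ d ∈ D, d ∣ Q)
    (h : p ^ 3 < (D.image (· % p)).card ^ 4) : Good (Q ^ 2) p := by
  classical
  have : Fact p.Prime := ⟨hp⟩
  have hcard : (D.image (fun d : ℕ => (d : ZMod p))).card = (D.image (· % p)).card := by
    have : D.image (fun d : ℕ => (d : ZMod p))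
        = (D.image (· % p)).image (fun d : ℕ => (d : ZMod p)) := by
      rw [image_image]
      refine image_congr fun d _ => ?_
      simp
    rw [this, card_image_of_injOn]
    intro a ha b hb hab
    obtain ⟨a', -, rfl⟩ := mem_image.mp ha
    obtain ⟨b', -, rfl⟩ := mem_image.mp hb
    have := (ZMod.natCast_eq_natCast_iff' _ _ p).mp hab
    simpa using this
  obtain ⟨a1, h1, b1, k1, a2, h2, b2, k2, a3, h3, b3, k3, a4, h4, b4, k4, h0⟩ :=
    cover_prime p (D.image (fun d : ℕ => (d : ZMod p))) (by rw [hcard]; exact h)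
  obtain ⟨a1, u1, rfl⟩ := mem_image.mp h1
  obtain ⟨a2, u2, rfl⟩ := mem_image.mp h2
  obtain ⟨a3, u3, rfl⟩ := mem_image.mp h3
  obtain ⟨a4, u4, rfl⟩ := mem_image.mp h4
  obtain ⟨b1, v1, rfl⟩ := mem_image.mp k1
  obtain ⟨b2, v2, rfl⟩ := mem_image.mp k2
  obtain ⟨b3, v3, rfl⟩ := mem_image.mp k3
  obtain ⟨b4, v4, rfl⟩ := mem_image.mp k4
  have m : ∀ a ∈ D, ∀ b ∈ D, a * b ∣ Q ^ 2 := fun a ha b hb => by
    rw [sq]; exact mul_dvd_mul (hD a ha) (hD b hb)
  refine ⟨a1 * b1, a2 * b2, a3 * b3, a4 * b4, m _ u1 _ v1, m _ u2 _ v2, m _ u3 _ v3,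
    m _ u4 _ v4, ?_⟩
  rw [← ZMod.natCast_eq_zero_iff]
  push_cast
  exact h0

lemma card_le_image_add_coll (D : Finset ℕ) (p : ℕ) :
    D.card ≤ (D.image (· % p)).card + (D.offDiag.filter fun x => x.1 % p = x.2 % p).card := by
  classical
  set X := (D.offDiag.filter fun x => x.1 % p = x.2 % p).image Prod.fst with hX
  have h1 : X.card ≤ (D.offDiag.filter fun x => x.1 % p = x.2 % p).card := card_image_le
  have h2 : (D \ X).card ≤ (D.image (· % p)).card := by
    refine card_le_card_of_injOn (· % p) ?_ ?_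
    · intro a ha
      simp only [coe_sdiff, Set.mem_sdiff, mem_coe] at ha
      exact mem_coe.mpr (mem_image_of_mem _ ha.1)
    · intro a ha b hb hab
      simp only [coe_sdiff, Set.mem_sdiff, mem_coe] at ha hb
      by_contra hne
      apply ha.2
      refine mem_image.mpr ⟨(a, b), ?_, rfl⟩
      simp only [mem_filter, mem_offDiag]
      exact ⟨⟨ha.1, hb.1, hne⟩, hab⟩
  have h3 : D.card ≤ (D \ X).card + X.card := card_le_card_sdiff_add_card
  omega

lemma card_primes_coll_le {a b T : ℕ} (hab : a ≠ b) (ha : a ≤ 2 ^ T) (hb : b ≤ 2 ^ T)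
    (P : Finset ℕ) (hP : ∀ p ∈ P, p.Prime) :
    (P.filter fun p => a % p = b % p).card ≤ T := by
  wlog h : b < a generalizing a b
  · have := this hab.symm hb ha (by omega)
    simpa [eq_comm] using this
  have hd : ∏ p ∈ P.filter (fun p => a % p = b % p), p ∣ a - b := by
    refine Finset.prod_primes_dvd _ (fun p hp => (hP p (mem_filter.mp hp).1).prime) ?_
    intro p hp
    exact (Nat.modEq_iff_dvd' h.le).mp (mem_filter.mp hp).2.symm
  have h1 := Nat.le_of_dvd (by omega) hd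
  have h2 : 2 ^ (P.filter fun p => a % p = b % p).card
      ≤ ∏ p ∈ P.filter (fun p => a % p = b % p), p :=
    Finset.pow_card_le_prod _ _ _ fun p hp => (hP p (mem_filter.mp hp).1).two_le
  have h3 : 2 ^ (P.filter fun p => a % p = b % p).card ≤ 2 ^ T := by omega
  exact (Nat.pow_le_pow_iff_right (by norm_num)).mp h3

lemma card_bad_le (D : Finset ℕ) (T : ℕ) (hD : ∀ d ∈ D, d ≤ 2 ^ T) (hD0 : 0 < D.card)
    (P : Finset ℕ) (hP : ∀ p ∈ P, p.Prime) :
    (P.filter fun p => 2 * (D.image (· % p)).card < D.card).card ≤ 2 * T * D.card := by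
  classical
  set Bad := P.filter fun p => 2 * (D.image (· % p)).card < D.card with hBad
  have h1 : Bad.card * D.card ≤
      ∑ p ∈ Bad, 2 * (D.offDiag.filter fun x => x.1 % p = x.2 % p).card := by
    rw [← smul_eq_mul]
    refine card_nsmul_le_sum _ _ _ fun p hp => ?_
    have := card_le_image_add_coll D p
    have := (mem_filter.mp hp).2
    omega
  have h2 : ∑ p ∈ Bad, (D.offDiag.filter fun x => x.1 % p = x.2 % p).card
      = ∑ x ∈ D.offDiag, (Bad.filter fun p => x.1 % p = x.2 % p).card := by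
    simp_rw [card_filter]
    exact sum_comm
  have h3 : ∑ x ∈ D.offDiag, (Bad.filter fun p => x.1 % p = x.2 % p).card
      ≤ D.offDiag.card * T := by
    rw [← smul_eq_mul]
    refine sum_le_card_nsmul _ _ _ fun x hx => ?_
    rw [mem_offDiag] at hx
    exact card_primes_coll_le hx.2.2 (hD _ hx.1) (hD _ hx.2.1) Bad
      fun p hp => hP p (mem_filter.mp hp).1
  have h4 : D.offDiag.card ≤ D.card * D.card := by rw [offDiag_card]; omega
  rw [← mul_sum, h2] at h1
  refine Nat.le_of_mul_le_mul_right ?_ hD0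
  calc Bad.card * D.card ≤ 2 * (D.offDiag.card * T) := h1.trans (by gcongr)
    _ ≤ 2 * (D.card * D.card * T) := by gcongr
    _ = _ := by ring

lemma two_pow_le_primes (n : ℕ) : 2 ^ n ≤ (n + 1) * n ^ (Nat.primesLE n).card := by
  refine (Chebyshev.two_pow_le_mul_lcmUpto n).trans ?_
  gcongr
  rw [Nat.lcmUpto_eq_prod_pow_log]
  refine Finset.prod_le_pow_card _ _ _ fun p hp => ?_
  rcases Nat.eq_zero_or_pos n with rfl | hn
  · simp at hp
  · exact Nat.pow_log_le_self p hn.ne'

lemma primes_two_pow (k : ℕ) (hk : 1 ≤ k) :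
    2 ^ k ≤ k * ((Nat.primesLE (2 ^ k)).card + 2) := by
  have h := two_pow_le_primes (2 ^ k)
  have h1 : 2 ^ k + 1 ≤ 2 ^ (2 * k) := by
    have : 2 ≤ 2 ^ k := by
      calc 2 = 2 ^ 1 := rfl
        _ ≤ 2 ^ k := Nat.pow_le_pow_right (by norm_num) hk
    rw [two_mul, pow_add]; nlinarith
  have h2 : 2 ^ 2 ^ k ≤ 2 ^ (k * ((Nat.primesLE (2 ^ k)).card + 2)) := by
    calc 2 ^ 2 ^ k ≤ 2 ^ (2 * k) * (2 ^ k) ^ (Nat.primesLE (2 ^ k)).card := h.trans (by gcongr)
      _ = _ := by rw [← pow_mul, ← pow_add]; congr 1; ring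
  exact (Nat.pow_le_pow_iff_right (by norm_num)).mp h2

lemma card_divisors_primorial (V : ℕ) :
    (primorial V).divisors.card = 2 ^ (Nat.primesLE V).card := by
  rw [Nat.card_divisors (primorial_ne_zero V), primeFactors_primorial]
  rw [Finset.prod_congr rfl (g := fun _ => 2)]
  · simp
  · intro p hp
    have h1 := (Nat.squarefree_iff_factorization_le_one (primorial_ne_zero V)).mp
      (squarefree_primorial V) p
    have h2 : 1 ≤ (primorial V).factorization p := by
      rw [← primeFactors_primorial] at hp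
      exact (Nat.Prime.dvd_iff_one_le_factorization (Nat.prime_of_mem_primeFactors hp)
        (primorial_ne_zero V)).mp (Nat.dvd_of_mem_primeFactors hp)
    omega

lemma twenty_mul_le (s : ℕ) (hs : 8 ≤ s) : 20 * s ≤ 2 ^ s := by
  induction s, hs using Nat.le_induction with
  | base => norm_num
  | succ s hs ih => rw [pow_succ]; omega

/-- many good primes at scale `t ^ 20`, `t = 2 ^ s`. -/
lemma many_good (V s : ℕ) (hs : 8 ≤ s) (hV : V ≤ 2 ^ s) (hs2 : 16 * s ≤ (Nat.primesLE V).card) :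
    ∃ P : Finset ℕ, (2 ^ s) ^ 18 ≤ P.card ∧
      ∀ p ∈ P, p ≤ (2 ^ s) ^ 20 ∧ Good (primorial V ^ 2) p := by
  classical
  set t := 2 ^ s with ht
  have ht1 : 20 * s ≤ t := twenty_mul_le s hs
  have ht2 : 160 ≤ t := by omega
  obtain ⟨D, hD1, hD2⟩ := exists_subset_card_eq (s := (primorial V).divisors) (n := t ^ 16) (by
    rw [card_divisors_primorial, ht, ← pow_mul]
    exact Nat.pow_le_pow_right (by norm_num) (by omega))
  have hDQ : ∀ d ∈ D, d ∣ primorial V := fun d hd => Nat.dvd_of_mem_divisors (hD1 hd)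
  have hDle : ∀ d ∈ D, d ≤ 2 ^ (2 * V) := fun d hd => by
    refine (Nat.le_of_dvd (primorial_pos V) (hDQ d hd)).trans ?_
    rw [pow_mul]; exact primorial_le_four_pow V
  set P0 := Nat.primesLE (t ^ 20) with hP0
  have hP0p : ∀ p ∈ P0, p.Prime := fun p hp => Nat.prime_of_mem_primesLE hp
  have hbad := card_bad_le D (2 * V) hDle (by rw [hD2]; positivity) P0 hP0p
  have hpi := primes_two_pow (s * 20) (by omega)
  rw [pow_mul, ← ht, ← hP0] at hpi
  refine ⟨P0.filter fun p => ¬ 2 * (D.image (· % p)).card < D.card, ?_, ?_⟩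
  · have hsplit := card_filter_add_card_filter_not (s := P0)
      (fun p => 2 * (D.image (· % p)).card < D.card)
    rw [hD2] at hbad
    have a1 : t ^ 19 ≤ P0.card + 2 := by
      have : t * t ^ 19 ≤ t * (P0.card + 2) := by
        calc t * t ^ 19 = t ^ 20 := by ring
          _ ≤ s * 20 * (P0.card + 2) := hpi
          _ ≤ _ := by gcongr; omega
      exact Nat.le_of_mul_le_mul_left this (by omega)
    have a2 : 2 * (2 * V) * t ^ 16 ≤ t ^ 18 := by
      calc 2 * (2 * V) * t ^ 16 = (4 * V) * t ^ 16 := by ring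
        _ ≤ (t * t) * t ^ 16 := by gcongr; omega
        _ = _ := by ring
    have a3 : 2 ≤ t ^ 18 := le_trans (by omega) (Nat.le_self_pow (by norm_num) t)
    have a4 : 160 * t ^ 18 ≤ t ^ 19 := by rw [pow_succ' t 18]; gcongr
    rw [hD2] at hsplit ⊢
    omega
  · intro p hp
    rw [mem_filter] at hp
    have hple : p ≤ t ^ 20 := Nat.le_of_mem_primesLE hp.1
    refine ⟨hple, good_of_image (hP0p p hp.1) D hDQ ?_⟩
    have b1 : t ^ 16 ≤ 2 * (D.image (· % p)).card := by rw [← hD2]; omega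
    have b2 : 16 * p ^ 3 < 16 * (D.image (· % p)).card ^ 4 := by
      calc 16 * p ^ 3 ≤ 16 * (t ^ 20) ^ 3 := by gcongr
        _ < t ^ 4 * (t ^ 20) ^ 3 := by
          gcongr
          exact lt_of_lt_of_le (by omega) (Nat.le_self_pow (by norm_num) t)
        _ = (t ^ 16) ^ 4 := by ring
        _ ≤ (2 * (D.image (· % p)).card) ^ 4 := by gcongr
        _ = _ := by ring
    omega

end Vale.Agent.P012
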