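import Vale.Agent.P012.Good

/-! The numerator reduction and the upper bound. -/

namespace Vale.Agent.P012

open Finset

/-- one reduction step at scale `t` -/
lemma reduce_step {R G t c W : ℕ} (hR : 0 < R) (ht : 8 ≤ t) (P : Finset ℕ)
    (hP1 : t ^ 18 ≤ P.card) (hP2 : ∀ p ∈ P, p ≤ t ^ 20 ∧ Good R p)
    (hG : ∀ Z, 1 ≤ Z → Z ≤ c → ∃ g, g ∣ G ∧ 0 < g ∧ g ≤ Z ∧ Z < 2 * g)
    (hc : t ^ 28 ≤ c) (hW : 0 < W) (hGW : G * R ^ 2 ∣ W) :
    ∃ c' v : ℕ, 0 < v ∧ c' * t ≤ c ∧
      ∃ y : ℚ, Rep 16 y ∧ (c : ℚ) / W = y + (c' : ℚ) / (W * v : ℕ) := by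
  have ht0 : 0 < t := by omega
  have hT : 0 < t ^ 28 := by positivity
  obtain ⟨g, hg1, hg0, hg2, hg3⟩ := hG (c / t ^ 28) (Nat.div_pos hc hT) (Nat.div_le_self _ _)
  set q := c / g with hq
  have hq1 : t ^ 28 ≤ q := by
    rw [hq, Nat.le_div_iff_mul_le hg0, mul_comm]
    exact (Nat.le_div_iff_mul_le hT).mp hg2
  have hq2 : q ≤ 2 * t ^ 28 := by
    rw [hq]
    refine Nat.div_le_of_le_mul ?_
    have := (Nat.div_lt_iff_lt_mul hT).mp hg3
    nlinarith
  have hq0 : 0 < q := lt_of_lt_of_le hT hq1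
  have pw : ∀ i j : ℕ, i < j → 8 * t ^ i ≤ t ^ j := by
    intro i j hij
    calc 8 * t ^ i ≤ t * t ^ i := by gcongr
      _ = t ^ (i + 1) := by ring
      _ ≤ t ^ j := Nat.pow_le_pow_right ht0 hij
  obtain ⟨p, hp, p', hp', y, hy, v, hv⟩ := cover_interval q hq0 P (t ^ 20) (t ^ 25)
    (fun p hp => (hP2 p hp).1)
    (by have := pw 20 28 (by norm_num); have : 0 < t ^ 20 := by positivity
        omega)
    (by have := pw 25 28 (by norm_num); omega)
    (by calc 2 * q * t ^ 20 ≤ 2 * (2 * t ^ 28) * t ^ 20 := by gcongr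
          _ = 4 * t ^ 48 := by ring
          _ ≤ t ^ 50 := by have := pw 48 50 (by norm_num); omega
          _ = _ := by ring)
    (by calc 4 * q ^ 3 ≤ 4 * (2 * t ^ 28) ^ 3 := by gcongr
          _ = 32 * t ^ 84 := by ring
          _ ≤ t ^ 86 := by
            have := pw 84 85 (by norm_num); have := pw 85 86 (by norm_num); omega
          _ = (t ^ 18) ^ 2 * (t ^ 25) ^ 2 := by ring
          _ ≤ _ := by gcongr)
  -- make the multiplier positive
  obtain ⟨r, hr, hcr⟩ : ∃ r, r < g ∧ c = g * q + r :=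
    ⟨c % g, Nat.mod_lt _ hg0, (Nat.div_add_mod c g).symm⟩
  have hpp : p * p' ≤ t ^ 40 := by
    calc p * p' ≤ t ^ 20 * t ^ 20 := Nat.mul_le_mul (hP2 p hp).1 (hP2 p' hp').1
      _ = _ := by ring
  have hvle : v ≤ t ^ 13 := by
    have : t ^ 28 * v ≤ t ^ 28 * t ^ 13 := by
      calc t ^ 28 * v ≤ q * v := by gcongr
        _ = p * p' + y := hv.symm
        _ ≤ t ^ 41 := by
          have := pw 40 41 (by norm_num); have := pw 25 40 (by norm_num); omega
        _ = _ := by ring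
    exact Nat.le_of_mul_le_mul_left this hT
  rcases Nat.eq_zero_or_pos v with hv0 | hv0
  · -- then `p * p' = 0`, so a good number is zero, impossible
    exfalso
    have h0 : p * p' = 0 := by rw [hv0] at hv; omega
    have hg : ∀ p, Good R p → p ≠ 0 := by
      rintro p ⟨d1, d2, d3, d4, h1, -, -, -, h5⟩ rfl
      have := Nat.pos_of_dvd_of_pos h1 hR
      have := Nat.eq_zero_of_zero_dvd h5
      omega
    exact mul_ne_zero (hg p (hP2 p hp).2) (hg p' (hP2 p' hp').2) h0
  refine ⟨g * y + r * v, v, hv0, ?_, ((g * (p * p') : ℕ) : ℚ) / (W * v : ℕ), ?_, ?_⟩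
  · calc (g * y + r * v) * t ≤ (g * (3 * t ^ 25) + g * t ^ 13) * t := by gcongr
      _ = g * (3 * t ^ 26 + t ^ 14) := by ring
      _ ≤ g * q := by
        gcongr
        have := pw 26 28 (by norm_num); have := pw 14 26 (by norm_num); omega
      _ ≤ c := by omega
  · refine rep_good_good (hP2 p hp).2 (hP2 p' hp').2 hR (by positivity) ?_
    exact ((mul_dvd_mul_right hg1 _).trans hGW).mul_right v
  · have hWq : (W : ℚ) ≠ 0 := by positivity
    have hvq : (v : ℚ) ≠ 0 := by positivity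
    have e1 : (p : ℚ) * p' + y = q * v := by exact_mod_cast hv
    have e2 : (c : ℚ) = g * q + r := by exact_mod_cast hcr
    push_cast
    field_simp
    rw [e2]
    linear_combination -g * e1

/-- numerators below `2 ^ m` are finished with `k` unit fractions -/
def Fin' (B0 B m k : ℕ) : Prop :=
  ∀ c W : ℕ, c < 2 ^ m → c ≤ B0 → 0 < W → B ∣ W → Rep k ((c : ℚ) / W)

/-- the scale `2 ^ s` is admissible -/
def Adm (B0 B s : ℕ) : Prop :=
  ∀ c W : ℕ, 2 ^ (28 * s) ≤ c → c ≤ B0 → 0 < W → B ∣ W →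
    ∃ c' v : ℕ, 0 < v ∧ c' * 2 ^ s ≤ c ∧
      ∃ y : ℚ, Rep 16 y ∧ (c : ℚ) / W = y + (c' : ℚ) / (W * v : ℕ)

lemma Fin'.step {B0 B m k s : ℕ} (h : Fin' B0 B m k) (hs : Adm B0 B s) (hm : 28 * s ≤ m) :
    Fin' B0 B (m + s) (k + 16) := by
  intro c W hc hcB hW hBW
  by_cases hlt : c < 2 ^ m
  · exact (h c W hlt hcB hW hBW).mono (by omega)
  · obtain ⟨c', v, hv, hc', y, hy, e⟩ := hs c W
      ((Nat.pow_le_pow_right (by norm_num) hm).trans (by omega)) hcB hW hBW
    have h2 : 0 < 2 ^ s := by positivity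
    have := h c' (W * v) (by
      rw [pow_add] at hc
      exact lt_of_mul_lt_mul_right (lt_of_le_of_lt hc' hc) h2.le) (by nlinarith) (by positivity)
      (hBW.mul_right v)
    rw [e, add_comm k 16]
    exact hy.add this

lemma Fin'.iter {B0 B m k s : ℕ} (h : Fin' B0 B m k) (hs : Adm B0 B s) (hm : 28 * s ≤ m)
    (j : ℕ) : Fin' B0 B (m + j * s) (k + 16 * j) := by
  induction j with
  | zero => simpa using h
  | succ j ih =>
    have := ih.step hs (by omega)
    convert this using 1 <;> ring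

lemma Fin'.levels {B0 B u k : ℕ} (h : Fin' B0 B (28 * u) k) (J : ℕ)
    (hs : ∀ j ≤ J, Adm B0 B (u * 2 ^ j)) : Fin' B0 B (28 * (u * 2 ^ J)) (k + 448 * J) := by
  induction J with
  | zero => simpa using h
  | succ J ih =>
    have := (ih fun j hj => hs j (by omega)).iter (hs J (by omega)) le_rfl 28
    convert this using 1 <;> ring

lemma sq_le_two_pow' (u : ℕ) (hu : 12 ≤ u) : 28 * u ^ 2 ≤ 2 ^ u := by
  induction u, hu using Nat.le_induction with
  | base => norm_num
  | succ s hs ih => rw [pow_succ 2]; nlinarith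

theorem rep_of_lt (u a b : ℕ) (hu : 12 ≤ u) (hab : a < b) (hb : b < 2 ^ 2 ^ u) :
    Rep (8200 * u) ((a : ℚ) / b) := by
  set V := 2 ^ u with hV
  set Q := primorial V with hQ
  have hQ0 : 0 < Q := primorial_pos V
  obtain ⟨A, B0, h1, h2, h3, h4, y, h5, h6⟩ := greedy hab (u + 4)
  have hB0 : 0 < B0 := by omega
  set B := B0 * 2 ^ V * (Q ^ 2) ^ 2 with hB
  set w := (Nat.primesLE V).card with hw
  have hw1 : V ≤ u * (w + 2) := primes_two_pow u (by omega)
  have hw2 : w ≤ V := by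
    have : Nat.primesLE V ⊆ Icc 1 V := fun p hp =>
      mem_Icc.mpr ⟨(Nat.prime_of_mem_primesLE hp).one_le, Nat.le_of_mem_primesLE hp⟩
    have := card_le_card this
    rw [Nat.card_Icc, Nat.add_sub_cancel] at this
    exact this
  have hsq := sq_le_two_pow' u hu
  rw [← hV] at hsq
  have hw3 : 16 * u ≤ w := by
    have : u * (28 * u) ≤ u * (w + 2) := by nlinarith
    have := Nat.le_of_mul_le_mul_left this (by omega)
    omega
  have hadm : ∀ s, u ≤ s → 16 * s ≤ w → Adm B0 B s := by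
    intro s hs1 hs2 c W hc1 hc2 hW hBW
    obtain ⟨P, hP1, hP2⟩ := many_good V s (by omega) (Nat.pow_le_pow_right (by norm_num) hs1) hs2
    refine reduce_step (R := Q ^ 2) (G := B0 * 2 ^ V) (by positivity) ?_ P hP1 hP2 ?_ ?_ hW hBW
    · calc 8 = 2 ^ 3 := rfl
        _ ≤ 2 ^ s := Nat.pow_le_pow_right (by norm_num) (by omega)
    · intro Z hZ1 hZ2
      exact h2.two (by omega) Z hZ1 (hZ2.trans hc2)
    · rw [← pow_mul, mul_comm]; exact hc1
  have hbase : Fin' B0 B (28 * u) (28 * u) := by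
    intro c W hc _ hW hBW
    refine rep_binary _ c W hc hW (Dvd.dvd.trans ?_ hBW)
    have : 28 * u ≤ V := by nlinarith
    exact ((pow_dvd_pow 2 this).mul_left B0).mul_right _
  set J := Nat.log 2 (w / (16 * u)) with hJ
  have hd0 : 0 < w / (16 * u) := Nat.div_pos hw3 (by omega)
  have hJ1 : 2 ^ J ≤ w / (16 * u) := Nat.pow_log_le_self 2 hd0.ne'
  have hJ2 : w / (16 * u) < 2 ^ (J + 1) := Nat.lt_pow_succ_log_self (by norm_num) _
  have hJ3 : 2 ^ J * (16 * u) ≤ w := (Nat.le_div_iff_mul_le (by omega)).mp hJ1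
  have hJ4 : w < 2 ^ (J + 1) * (16 * u) := (Nat.div_lt_iff_lt_mul (by omega)).mp hJ2
  have hJ5 : J ≤ u := by
    have : 2 ^ J ≤ 2 ^ u := hJ1.trans ((Nat.div_le_self _ _).trans hw2)
    exact (Nat.pow_le_pow_iff_right (by norm_num)).mp this
  have hadmj : ∀ j ≤ J, Adm B0 B (u * 2 ^ j) := by
    intro j hj
    have e1 : 2 ^ j ≤ 2 ^ J := Nat.pow_le_pow_right (by norm_num) hj
    have e2 : 0 < 2 ^ j := by positivity
    refine hadm _ (by nlinarith) (le_trans ?_ hJ3)
    nlinarith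
  have hlev := hbase.levels J hadmj
  have htop := hlev.iter (hadmj J le_rfl) le_rfl (480 * u)
  have hQle : Q ≤ 2 ^ (2 * V) := by rw [pow_mul]; exact primorial_le_four_pow V
  have hR : 2 ^ V * (Q ^ 2) ^ 2 ≤ 2 ^ (9 * V) := by
    calc 2 ^ V * (Q ^ 2) ^ 2 ≤ 2 ^ V * ((2 ^ (2 * V)) ^ 2) ^ 2 := by gcongr
      _ = 2 ^ (9 * V) := by rw [← pow_mul, ← pow_mul, ← pow_add]; congr 1; ring
  have hfin := htop (A * (2 ^ V * (Q ^ 2) ^ 2)) B (by
      have e2 : 0 < 2 ^ J := by positivity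
      have e3 : 10 * V ≤ 480 * u * (u * 2 ^ J) := by
        have : w + 2 ≤ 48 * (u * 2 ^ J) := by rw [pow_succ] at hJ4; nlinarith
        nlinarith
      calc A * (2 ^ V * (Q ^ 2) ^ 2) < 2 ^ V * 2 ^ (9 * V) :=
            Nat.mul_lt_mul_of_lt_of_le (by omega) hR (by positivity)
        _ = 2 ^ (10 * V) := by rw [← pow_add]; congr 1; ring
        _ ≤ _ := Nat.pow_le_pow_right (by norm_num) (by omega))
    (by
      refine le_trans ?_ h4
      gcongr
      refine hR.trans (Nat.pow_le_pow_right (by norm_num) ?_)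
      rw [pow_add, ← hV]; omega)
    (by positivity) dvd_rfl
  have e : ((A * (2 ^ V * (Q ^ 2) ^ 2) : ℕ) : ℚ) / B = (A : ℚ) / B0 := by
    have : (Q : ℚ) ≠ 0 := by positivity
    have : (B0 : ℚ) ≠ 0 := by positivity
    rw [hB]; push_cast; field_simp
  rw [e] at hfin
  rw [h6]
  exact (h5.add hfin).mono (by omega)

lemma denom_le (k : ℕ) : ∀ (m : Multiset ℕ) (A D : ℕ), m.card = k → (∀ n ∈ m, 0 < n) → 0 < D →
    rsum m = (A : ℚ) / D → ∀ n ∈ m, n ≤ (k * D) ^ 2 ^ k := by
  induction k with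
  | zero => intro m A D h _ _ _ n hn; rw [Multiset.card_eq_zero] at h; simp [h] at hn
  | succ k ih =>
    intro m A D h hpos hD hs n hn
    have hm : m ≠ 0 := by rintro rfl; simp at h
    obtain ⟨n0, hn0, hle⟩ := exists_small m hm hpos
    obtain ⟨m', rfl⟩ := Multiset.exists_cons_of_mem hn0
    have hn0p : 0 < n0 := hpos n0 hn0
    have hn0q : (0 : ℚ) < n0 := by exact_mod_cast hn0p
    have hDq : (0 : ℚ) < D := by exact_mod_cast hD
    have hm' := rsum_nonneg m'
    have hA : 1 ≤ A := by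
      by_contra h0
      have : A = 0 := by omega
      rw [this, rsum_cons] at hs
      have : (0 : ℚ) < 1 / n0 := by positivity
      simp only [Nat.cast_zero, zero_div] at hs
      linarith
    have h1 : n0 * A ≤ (k + 1) * D := by
      rw [hs, h, ← mul_div_assoc, div_le_iff₀ hDq] at hle
      exact_mod_cast hle
    have h2 : n0 ≤ (k + 1) * D := le_trans (by nlinarith) h1
    have h3 : 1 ≤ (k + 1) * D := by nlinarith
    rcases Multiset.mem_cons.mp hn with rfl | hn'
    · exact h2.trans (Nat.le_self_pow (by positivity) _)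
    · rw [rsum_cons] at hs
      have h4 : D ≤ n0 * A := by
        have : (1 : ℚ) / n0 ≤ A / D := by linarith
        rw [div_le_div_iff₀ hn0q hDq] at this
        have : (D : ℚ) ≤ n0 * A := by linarith
        exact_mod_cast this
      have := ih m' (n0 * A - D) (D * n0) (by simpa using h)
        (fun a ha => hpos a (Multiset.mem_cons_of_mem ha)) (by positivity) (by
          rw [Nat.cast_sub h4]; push_cast
          have : rsum m' = A / D - 1 / n0 := by linarith
          rw [this]; field_simp) n hn'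
      refine this.trans ?_
      rw [pow_succ' 2 k, pow_mul]
      gcongr
      calc k * (D * n0) ≤ (k + 1) * (D * ((k + 1) * D)) := by gcongr; omega
        _ = _ := by ring

theorem upper (b : ℕ) (hb : 2 ^ 2 ^ 12 ≤ b) (a : ℕ) (hab : a < b) :
    ∃ S : Finset ℕ, (∀ n ∈ S, 2 ≤ n) ∧ ∑ n ∈ S, (1 : ℚ) / n = (a : ℚ) / b ∧
      (S.card : ℝ) ≤ 16400 * Real.log (Real.log b) := by
  have hb0 : 0 < b := by omega
  set l := Nat.log 2 b with hl
  have hl1 : 2 ^ 12 ≤ l := Nat.le_log_of_pow_le (by norm_num) hb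
  set u := Nat.log 2 l with hu
  have hu1 : 12 ≤ u := Nat.le_log_of_pow_le (by norm_num) hl1
  have h1 : b < 2 ^ 2 ^ (u + 1) := by
    calc b < 2 ^ (l + 1) := Nat.lt_pow_succ_log_self (by norm_num) _
      _ ≤ _ := Nat.pow_le_pow_right (by norm_num) (Nat.lt_pow_succ_log_self (by norm_num) l)
  have h2 : 2 ^ 2 ^ u ≤ b := by
    calc 2 ^ 2 ^ u ≤ 2 ^ l :=
          Nat.pow_le_pow_right (by norm_num) (Nat.pow_log_le_self 2 (by omega))
      _ ≤ b := Nat.pow_log_le_self 2 hb0.ne'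
  obtain ⟨S, k1, k2, k3⟩ := (rep_of_lt (u + 1) a b (by omega) hab h1).distinct (by
    rw [div_lt_one (by exact_mod_cast hb0)]; exact_mod_cast hab)
  refine ⟨S, k2, k3, ?_⟩
  have hlog2 : (0.6931 : ℝ) < Real.log 2 := lt_trans (by norm_num) Real.log_two_gt_d9
  have e1 : (2 : ℝ) ^ (u - 1) ≤ Real.log b := by
    have : ((2 : ℝ) ^ 2 ^ u) ≤ b := by exact_mod_cast h2
    have h := Real.log_le_log (by positivity) this
    rw [Real.log_pow] at h
    push_cast at h
    have e : (2 : ℝ) ^ u = 2 * 2 ^ (u - 1) := by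
      rw [← pow_succ']; congr 1; omega
    rw [e] at h
    have : (0 : ℝ) < 2 ^ (u - 1) := by positivity
    nlinarith
  have e2 := Real.log_le_log (by positivity) e1
  rw [Real.log_pow, Nat.cast_sub (by omega)] at e2
  have e3 : (S.card : ℝ) ≤ 8200 * (u + 1) := by exact_mod_cast k1
  have e4 : (12 : ℝ) ≤ u := by exact_mod_cast hu1
  push_cast at e2
  nlinarith

theorem lower (b : ℕ) (hb : 2 ≤ b) (S : Finset ℕ) (h1 : ∀ n ∈ S, 2 ≤ n)
    (h2 : ∑ n ∈ S, (1 : ℚ) / n = ((b : ℚ) - 1) / b) :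
    1 / 4 * Real.log (Real.log b) ≤ S.card := by
  have hbq : (2 : ℚ) ≤ b := by exact_mod_cast hb
  have hk : 1 ≤ S.card := by
    rcases S.eq_empty_or_nonempty with rfl | h
    · simp only [sum_empty] at h2
      have : (0 : ℚ) < ((b : ℚ) - 1) / b := div_pos (by linarith) (by linarith)
      linarith
    · exact h.card_pos
  have h := denom_le (S.card + 1) (b ::ₘ S.val) 1 1 (by simp) (by
      intro n hn
      rcases Multiset.mem_cons.mp hn with rfl | hn
      · omega
      · have := h1 n hn; omega) one_pos (by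
      rw [rsum_cons]
      have : rsum S.val = ∑ n ∈ S, (1 : ℚ) / n := rfl
      rw [this, h2]
      have : (b : ℚ) ≠ 0 := by linarith
      field_simp; ring) b (by simp)
  set k := S.card
  have h3 : b ≤ 2 ^ 2 ^ (2 * k + 2) := by
    refine h.trans ?_
    have a1 : k + 1 ≤ 2 ^ (k + 1) := (Nat.lt_two_pow_self).le
    calc ((k + 1) * 1) ^ 2 ^ (k + 1) ≤ (2 ^ 2 ^ (k + 1)) ^ 2 ^ (k + 1) := by
          gcongr
          rw [mul_one]
          exact a1.trans (Nat.lt_two_pow_self).le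
      _ = _ := by rw [← pow_mul, ← pow_add]; congr 2; ring
  have hlog2 : Real.log 2 < 1 := lt_trans Real.log_two_lt_d9 (by norm_num)
  have hlog2' : 0 < Real.log 2 := Real.log_pos (by norm_num)
  have hbR : (2 : ℝ) ≤ b := by exact_mod_cast hb
  have e1 : Real.log b ≤ (2 : ℝ) ^ (2 * k + 2) := by
    have : (b : ℝ) ≤ (2 : ℝ) ^ 2 ^ (2 * k + 2) := by exact_mod_cast h3
    have h := Real.log_le_log (by linarith) this
    rw [Real.log_pow] at h
    push_cast at h
    have : (0 : ℝ) < 2 ^ (2 * k + 2) := by positivity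
    nlinarith
  have e2 := Real.log_le_log (Real.log_pos (by linarith)) e1
  rw [Real.log_pow] at e2
  push_cast at e2
  have e4 : (1 : ℝ) ≤ k := by exact_mod_cast hk
  nlinarith

end Vale.Agent.P012
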